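import Vale.Agent.P088.R2.H509.EP.DT
import Vale.Agent.P088.R2.H281.EP.Bas
import Vale.Agent.P088.R2.H281.EP.Prs
import Vale.Agent.P088.R2.H455.E.Lett

/-!
# P088, stage 3, EST': payments: the cost of the leaf `A1` against the tubes `T1`, `T2`
-/

open Set Filter MeasureTheory
open scoped ContDiff Topology Matrix

noncomputable section

namespace Vale.Agent.P088.R2.H509.PA

open Vale.Agent.P088.LR Vale.Agent.P088.HY Vale.Agent.P088.R2.H31.EP
open Vale.Agent.P088.R2.H710.GP Vale.Agent.P088.R2.H867.EP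
open Vale.Agent.P088.R2.H509.Jet Vale.Agent.P088.R2.H509.TG Vale.Agent.P088.R2.H509.DW
open Vale.Agent.P088.R2.H509.DT Vale.Agent.P088.R2.H509.PT
open Vale.Agent.P088.R2.H455.E Vale.Agent.P088.R2.H551.E
open Vale.Agent.P088.R2.H338.TC (Na)
open Vale.Agent.P088.R2.H464.Cu (mid rq)

variable {n : ℕ} {q : Cst} {d : Pk n} {z : VV n}

/-! ## Small dependence -/

theorem NB_c'.M₀ {f : Cst → ℝ} (h : NB_c' f) : NB_M₀ f := fun q =>
  (h q.b_M₀).symm.trans (h q)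

theorem NB_rT.c' {f : Cst → ℝ} (h : NB_rT f) : NB_c' f := fun q =>
  (h q.b_c').symm.trans (h q)

theorem NB_ηc.c' {f : Cst → ℝ} (h : NB_ηc f) : NB_c' f := fun q =>
  (h q.b_c').symm.trans (h q)

theorem ev_M₀ {f : Cst → ℝ} (h : NB_M₀ f) : EvC fun q => f q ≤ q.M₀ :=
  (EvC.at_M₀ (fun q t => f q ≤ t) fun _ => eventually_ge_atTop _).mono fun q hq => by
    rwa [h q] at hq

/-! ## The margin of zone A at the tubes -/

/-- `mA ≤ C₁ N`. -/
def C₁ (μ₀ : Cst → ℝ) (q : Cst) : ℝ :=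
  |μ₀ q| * (3 / q.c₀ * (aV q * S₃ q)) + (1 + aV q * S₃ q)

/-- `G = E S(r²)` where `r < r₁ / e`. -/
theorem GG_in (h : PkOk q d) (he : 0 < q.e₁) (h0 : 0 < d.r2 z)
    (h1 : H747.A.rr d z < q.r₁ * Real.exp (-1)) :
    H747.A.GG q d z = Real.exp (d.u q z) * prS q.e₁ (d.r2 z) := by
  have hr : 0 < H747.A.rr d z := Real.sqrt_pos.2 h0
  have h2 : H747.A.rr d z ^ 2 = d.r2 z := Real.sq_sqrt h0.le
  have h3 := h.sl.inn 1 0 (H747.A.ff q d z, H747.A.rr d z) hr h1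
  rw [if_pos rfl] at h3
  unfold H747.A.GG H747.A.D₂
  rw [h3]
  show Real.exp (d.u q z + H747.A.lS q (H747.A.rr d z)) = _
  have h4 : 0 < prS q.e₁ (d.r2 z) := (H281.EP.pp_ok he).S_pos h0
  unfold H747.A.lS
  rw [Real.exp_add, h2, Real.exp_log h4]

theorem r2_bd (hq : DTC n q) (h : PkOk q d) (hz : TR q d z) :
    q.c₀ ^ 2 / 8 ≤ d.r2 z ∧ d.r2 z < (3 * q.p₁) ^ 2 := by
  have h1 := (abs_le.1 (dist_le hq.gd h z)).1
  have h2 := hz.q1
  have h3 := hz.far hq.gt h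
  have hp := Cst.p₁_ge hq.gt.gc.rad
  have e : d.r2 z = r2 (gi d.s₁) z := rfl
  constructor
  · rw [e]; linarith
  · nlinarith

theorem mA_bd (hq : DTC n q) (h : PkOk q d) (hz : TR q d z) {μ₀ : Cst → ℝ} (hμ : 0 ≤ μ₀ q)
    (hσ : q.σ / (400 * q.R) ≤ 1) (hr₁ : 0 < q.r₁) :
    0 ≤ H747.A.mA μ₀ q d z ∧ H747.A.mA μ₀ q d z ≤ C₁ μ₀ q * deriv d.Φ (d.u0 z) := by
  have he := hq.gt.gc.rad.e0
  obtain ⟨r1, r2⟩ := r2_bd hq h hz
  have hc := hq.gt.c0
  have hr0 : 0 < d.r2 z := lt_of_lt_of_le (by positivity) r1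
  have hp := Cst.p₁_ge hq.gt.gc.rad
  have hin : H747.A.rr d z < q.r₁ * Real.exp (-1) := by
    have h2 := hq.gd.rd
    have h3 : H747.A.rr d z ^ 2 < (q.r₁ * Real.exp (-1)) ^ 2 := by
      have : H747.A.rr d z ^ 2 = d.r2 z := Real.sq_sqrt hr0.le
      rw [this]
      nlinarith
    exact lt_of_pow_lt_pow_left₀ 2 (by positivity) h3
  have hG := GG_in h he hr0 hin
  have hu : d.u q z = d.u0 z := (u_ev hq h hz).self_of_nhds
  rw [hu] at hG
  have hN := h.N_pos hq.gt.gc.M1 (d.u0 z)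
  have hE := E_le hq.gt h hz
  have hS := S₃_le hq.gt hr0.le r2.le
  have hS0 := S₃_nn hq.gt
  have ha := aV_pos hq.gt
  have hS1 : 0 < prS q.e₁ (d.r2 z) := (H281.EP.pp_ok he).S_pos hr0
  have hG0 : 0 < H747.A.GG q d z := by rw [hG]; positivity
  have hG1 : H747.A.GG q d z ≤ aV q * S₃ q * deriv d.Φ (d.u0 z) := by
    rw [hG]
    calc Real.exp (d.u0 z) * prS q.e₁ (d.r2 z) ≤ aV q * deriv d.Φ (d.u0 z) * S₃ q :=
          mul_le_mul hE hS hS1.le (by positivity)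
      _ = _ := by ring
  have hrr : q.c₀ / 3 ≤ H747.A.rr d z := by
    refine Real.le_sqrt_of_sq_le ?_
    nlinarith
  have hrr0 : 0 < H747.A.rr d z := lt_of_lt_of_le (by positivity) hrr
  have hd1 : H747.A.GG q d z / H747.A.rr d z ≤
      3 / q.c₀ * (aV q * S₃ q) * deriv d.Φ (d.u0 z) := by
    rw [div_le_iff₀ hrr0]
    have h5 : 3 / q.c₀ * (aV q * S₃ q) * deriv d.Φ (d.u0 z) * (q.c₀ / 3) =
        aV q * S₃ q * deriv d.Φ (d.u0 z) := by
      field_simp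
    have h6 : 3 / q.c₀ * (aV q * S₃ q) * deriv d.Φ (d.u0 z) * (q.c₀ / 3) ≤
        3 / q.c₀ * (aV q * S₃ q) * deriv d.Φ (d.u0 z) * H747.A.rr d z :=
      mul_le_mul_of_nonneg_left hrr (by positivity)
    linarith
  have hNN : d.N q z = deriv d.Φ (d.u0 z) := by
    unfold Pk.N
    rw [hu]
  have hσ0 : 0 ≤ q.σ / (400 * q.R) := by
    have h1 := hq.gt.gc.inf.σ0
    have h2 := hq.gt.wc.R
    positivity
  unfold H747.A.mA H747.A.NG C₁
  rw [hNN, abs_of_nonneg hμ]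
  constructor
  · positivity
  · have k1 := mul_le_mul_of_nonneg_left hd1 hμ
    have k2 : q.σ / (400 * q.R) * (deriv d.Φ (d.u0 z) + H747.A.GG q d z) ≤
        deriv d.Φ (d.u0 z) + H747.A.GG q d z :=
      mul_le_of_le_one_left (by positivity) hσ
    linarith

/-! ## The numbers -/

/-- `|D χ|² ≤ B`. -/
def BB (n : ℕ) (q : Cst) : ℝ := n * BD n q ^ 2

/-- `|D W|² ≤ g N²`. -/
def gW (n : ℕ) (q : Cst) : ℝ := n * CX n q ^ 2

theorem BB_nb : NB_ηc (BB n) := fun _ => rfl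
theorem gW_nb : NB_rT (gW n) := fun _ => rfl

theorem BB_nn : 0 ≤ BB n q := by unfold BB; positivity
theorem gW_nn : 0 ≤ gW n q := by unfold gW; positivity

/-- The threshold of `e`. -/
def thA (n : ℕ) (c : Cst → ℝ) (q : Cst) : ℝ := c q / (2 * (34 * (144 * BB n q * gW n q)) + 1)

theorem thA_sm {c : Cst → ℝ} (h0 : ∀ q, 0 < c q) (hc : NB_rT c) : SmE (thA n c) := by
  refine ⟨fun q => ?_, fun q => ?_⟩
  · have h1 : c q.b_c' = c q := NB_rT.c' hc q
    have h2 : BB n q.b_c' = BB n q := NB_ηc.c' BB_nb q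
    have h3 : gW n q.b_c' = gW n q := NB_rT.c' gW_nb q
    unfold thA
    rw [h1, h2, h3]
  · have := BB_nn (n := n) (q := q)
    have := gW_nn (n := n) (q := q)
    have := h0 q
    unfold thA
    positivity

/-- The lower bound of `M₀`. -/
def KA (n : ℕ) (c μ₀ e : Cst → ℝ) (q : Cst) : ℝ :=
  (34 * (32 * e q * BB n q) + 2 * (34 * (6 * C₁ μ₀ q * BB n q / e q)) +
    2 * (34 * (144 * e q * BB n q * gW n q))) / c q

theorem KA_nb {c μ₀ e : Cst → ℝ} (hc : NB_rT c) (hμ : NB_c' μ₀) (he : NB_c' e) :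
    NB_c' (KA n c μ₀ e) := fun q => by
  have h1 : c q.b_c' = c q := NB_rT.c' hc q
  have h2 : BB n q.b_c' = BB n q := NB_ηc.c' BB_nb q
  have h3 : gW n q.b_c' = gW n q := NB_rT.c' gW_nb q
  have h4 : μ₀ q.b_c' = μ₀ q := hμ q
  have h5 : e q.b_c' = e q := he q
  have h6 : C₁ μ₀ q.b_c' = C₁ μ₀ q := by
    have a1 : aV q.b_c' = aV q := rfl
    have a2 : S₃ q.b_c' = S₃ q := rfl
    have a3 : q.b_c'.c₀ = q.c₀ := rfl
    unfold C₁
    rw [h4, a1, a2, a3]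
  unfold KA
  rw [h1, h2, h3, h5, h6]

/-- All the conditions. -/
structure PAC (n : ℕ) (c μ₀ e : Cst → ℝ) (q : Cst) : Prop where
  dt : DTC n q
  bas : ∀ d : Pk n, PkOk q d → Bas q d
  σR : q.σ / (400 * q.R) ≤ 1
  r₁ : 0 < q.r₁
  c0 : 0 < c q
  μ0 : 0 < μ₀ q
  e0 : 0 < e q
  e1 : e q ≤ thA n c q
  M : KA n c μ₀ e q ≤ q.M₀

theorem evPAC (hn : 1 ≤ n) {c μ₀ e : Cst → ℝ} (c0 : ∀ q, 0 < c q) (hc : NB_rT c)
    (μ0 : ∀ q, 0 < μ₀ q) (hμ : NB_c' μ₀) (he : SmE e) (h1 : ∀ q, e q ≤ thA n c q) :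
    EvC (PAC n c μ₀ e) := by
  refine (((evDT hn).and (H281.EP.rowBas n)).and ((ev_M₀ (NB_c'.M₀ (KA_nb (n := n) hc hμ
    he.1))).and EvC.pos)).mono fun q hq => ?_
  refine ⟨hq.1.1, hq.1.2, ?_, ?_, c0 q, μ0 q, he.2 q, h1 q, hq.2.1⟩
  rotate_left
  · have h2 : 0 < q.c' := hq.2.2.2.1.2.2.1
    have h3 := hq.1.1.gt.gc.M1
    unfold Cst.r₁
    positivity
  have h2 := hq.1.1.gt.wc.R
  have h3 := hq.1.1.gt.gc.inf.σ1
  have h4 := hq.1.1.gt.gc.inf.σ0
  rw [div_le_one (by linarith)]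
  linarith

/-! ## The layer -/

theorem norm_ex (i : Fin n) : ‖((Pi.single i 1, 0) : VV n)‖ ≤ 1 := by
  rw [Prod.norm_def, norm_zero, max_eq_left (norm_nonneg _)]
  exact (H932.EP.norm_single i).le

theorem norm_ey (i : Fin n) : ‖((0, Pi.single i 1) : VV n)‖ ≤ 1 := by
  rw [Prod.norm_def, norm_zero, max_eq_right (norm_nonneg _)]
  exact (H932.EP.norm_single i).le

theorem sum_sq {f : Fin n → ℝ} {a : ℝ} (h : ∀ i, |f i| ≤ a) : ∑ i, f i ^ 2 ≤ n * a ^ 2 := by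
  have h1 : ∀ i ∈ Finset.univ, f i ^ 2 ≤ a ^ 2 := fun i _ => by
    have h2 := h i
    have h3 := abs_nonneg (f i)
    rw [← sq_abs]
    exact pow_le_pow_left₀ h3 h2 2
  refine (Finset.sum_le_sum h1).trans (le_of_eq ?_)
  rw [Finset.sum_const, Finset.card_univ, Fintype.card_fin, nsmul_eq_mul]

theorem lay {c μ₀ e : Cst → ℝ} (hq : PAC n c μ₀ e q) (h : PkOk q d) (hz : TR q d z)
    (hw : DWr q d z) : Lay (fx d.s₁) (fy d.s₂) (d.W q) (H747.A.mA μ₀ q d) (d.ch q .A1) (BB n q)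
      (C₁ μ₀ q) (Na d z) (gW n q) (gW n q) z := by
  have hb := hq.bas d h
  have hm := mA_bd hq.dt h hz hq.μ0.le hq.σR hq.r₁
  have hN := h.N_pos hq.dt.gt.gc.M1 (d.u0 z)
  have hA : OffN .A1 := by unfold OffN; decide
  have kx : ∀ i : Fin n, |(fx d.s₁).D i (d.ch q .A1) z| ≤ BD n q := fun i => by
    rw [fx_D]
    refine (ch_d hq.dt h hz hw hA _).trans ?_
    refine mul_le_of_le_one_right ?_ (norm_ex i)
    have := (abs_nonneg _).trans (ch_d hq.dt h hz hw hA ((Pi.single i 1, 0) : VV n))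
    by_contra hcon
    have hcon' := not_le.1 hcon
    have hp : 0 < ‖((Pi.single i 1, 0) : VV n)‖ := by
      rw [Prod.norm_def, norm_zero, max_eq_left (norm_nonneg _), H932.EP.norm_single i]
      norm_num
    nlinarith
  have ky : ∀ i : Fin n, |(fy d.s₂).D i (d.ch q .A1) z| ≤ BD n q := fun i => by
    rw [fy_D]
    refine (ch_d hq.dt h hz hw hA _).trans ?_
    refine mul_le_of_le_one_right ?_ (norm_ey i)
    have := (abs_nonneg _).trans (ch_d hq.dt h hz hw hA ((0, Pi.single i 1) : VV n))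
    by_contra hcon
    have hcon' := not_le.1 hcon
    have hp : 0 < ‖((0, Pi.single i 1) : VV n)‖ := by
      rw [Prod.norm_def, norm_zero, max_eq_right (norm_nonneg _), H932.EP.norm_single i]
      norm_num
    nlinarith
  have hX : 0 ≤ CX n q * deriv d.Φ (d.u0 z) ∨ n = 0 := by
    rcases Nat.eq_zero_or_pos n with h0 | h0
    · exact Or.inr h0
    · left
      have h1 := (abs_nonneg _).trans
        (W_d hq.dt h hz hw ((Pi.single (⟨0, h0⟩ : Fin n) 1, 0) : VV n))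
      by_contra hcon
      have hcon' := not_le.1 hcon
      have hp : 0 < ‖((Pi.single (⟨0, h0⟩ : Fin n) 1, 0) : VV n)‖ := by
        rw [Prod.norm_def, norm_zero, max_eq_left (norm_nonneg _), H932.EP.norm_single]
        norm_num
      nlinarith
  have wx : ∀ i : Fin n, |(fx d.s₁).D i (d.W q) z| ≤ CX n q * deriv d.Φ (d.u0 z) := fun i => by
    rw [fx_D]
    refine (W_d hq.dt h hz hw _).trans ?_
    rcases hX with hX | h0
    · exact mul_le_of_le_one_right hX (norm_ex i)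
    · exact absurd i.isLt (by omega)
  have wy : ∀ i : Fin n, |(fy d.s₂).D i (d.W q) z| ≤ CX n q * deriv d.Φ (d.u0 z) := fun i => by
    rw [fy_D]
    refine (W_d hq.dt h hz hw _).trans ?_
    rcases hX with hX | h0
    · exact mul_le_of_le_one_right hX (norm_ey i)
    · exact absurd i.isLt (by omega)
  have dx := sum_sq kx
  have dy := sum_sq ky
  have eX : (n : ℝ) * (CX n q * deriv d.Φ (d.u0 z)) ^ 2 = gW n q * Na d z ^ 2 := by
    unfold gW Na
    ring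
  refine ⟨hm.1, hm.2, dx, dy, ?_, ?_, (sum_sq wx).trans eX.le, (sum_sq wy).trans eX.le⟩
  · have h1 := (hb.e₁ z.1 fun i => (fx d.s₁).D i (d.ch q .A1) z).2
    exact h1.trans (by unfold BB; linarith)
  · have h1 := (hb.e₂ z.2 fun i => (fy d.s₂).D i (d.ch q .A1) z).2
    exact h1.trans (by unfold BB; linarith)

theorem nums {c μ₀ e : Cst → ℝ} (hq : PAC n c μ₀ e q) {N : ℝ} (hM : q.M₀ ≤ N) :
    34 * (32 * e q * BB n q) ≤ c q * N ∧
      34 * (6 * C₁ μ₀ q * BB n q / e q * N) + 34 * (144 * e q * BB n q * gW n q) * N ^ 2 ≤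
        c q * N ^ 2 ∧
      34 * (6 * C₁ μ₀ q * BB n q / e q * N) + 34 * (144 * e q * BB n q * gW n q) * N ^ 2 ≤
        c q * N ^ 3 := by
  have hB := BB_nn (n := n) (q := q)
  have hg := gW_nn (n := n) (q := q)
  have he := hq.e0
  have hc := hq.c0
  have hN1 : 1 ≤ N := hq.dt.gt.gc.M1.trans hM
  have hC : 0 ≤ C₁ μ₀ q := by
    have h1 := aV_pos hq.dt.gt
    have h2 := S₃_nn hq.dt.gt
    have h3 := hq.dt.gt.c0
    have h4 := hq.μ0
    unfold C₁
    positivity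
  have h1 := hq.M.trans hM
  unfold KA at h1
  rw [div_le_iff₀ hc] at h1
  have t1 : 0 ≤ 34 * (32 * e q * BB n q) := by positivity
  have t2 : 0 ≤ 2 * (34 * (6 * C₁ μ₀ q * BB n q / e q)) := by positivity
  have t3 : 0 ≤ 2 * (34 * (144 * e q * BB n q * gW n q)) := by positivity
  have s1 : 34 * (32 * e q * BB n q) ≤ c q * N := by linarith
  have s2 : 34 * (6 * C₁ μ₀ q * BB n q / e q) ≤ 1 / 2 * (c q * N) := by linarith
  have s3 : 34 * (144 * e q * BB n q * gW n q) ≤ 1 / 2 * c q := by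
    have h2 := hq.e1
    unfold thA at h2
    rw [le_div_iff₀ (by positivity)] at h2
    nlinarith
  have hN0 : 0 ≤ N := by linarith
  have s4 : 34 * (6 * C₁ μ₀ q * BB n q / e q * N) ≤ 1 / 2 * (c q * N ^ 2) := by
    have := mul_le_mul_of_nonneg_right s2 hN0
    linarith
  have s5 : 34 * (144 * e q * BB n q * gW n q) * N ^ 2 ≤ 1 / 2 * (c q * N ^ 2) := by
    have := mul_le_mul_of_nonneg_right s3 (sq_nonneg N)
    linarith
  have s6 : c q * N ^ 2 ≤ c q * N ^ 3 := mul_le_mul_of_nonneg_left (cub hN1) hc.le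
  exact ⟨s1, by linarith, by linarith⟩

/-! ## The payments -/

theorem pay1 {c μ₀ e : Cst → ℝ} (hq : PAC n c μ₀ e q) (h : PkOk q d) (hz : TR q d z)
    (hw : DWr q d z) (a b : VV n → ℝ) :
    34 * den d q (H747.SW.coA d.sx d.sy (d.W q) (H747.A.mA μ₀ q d) (d.ch q .A1) (e q)) a b z ≤
      den d q (MT1 (c q) (Na d)) a b z := by
  obtain ⟨n1, n2, n3⟩ := nums hq (N := Na d z) (h.N_ge _)
  exact coA_le (v₁ := fun _ => 0) (v₂ := fun _ => 0) (a := a) (b := b)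
    (big_T1 (c q) (Na d) z) (lay hq h hz hw) (by norm_num) hq.e0 BB_nn
    zero_le_one n1 n2 n3

theorem pay2 {c μ₀ e : Cst → ℝ} (hq : PAC n c μ₀ e q) (h : PkOk q d) (hz : TR q d z)
    (hw : DWr q d z) (a b : VV n → ℝ) :
    34 * den d q (H747.SW.coA d.sx d.sy (d.W q) (H747.A.mA μ₀ q d) (d.ch q .A1) (e q)) a b z ≤
      den d q (MT2 (c q) (Na d)) a b z := by
  obtain ⟨n1, n2, n3⟩ := nums hq (N := Na d z) (h.N_ge _)
  exact coA_le (v₁ := fun _ => 0) (v₂ := fun _ => 0) (a := a) (b := b)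
    (big_T2 (c q) (Na d) z) (lay hq h hz hw) (by norm_num) hq.e0 BB_nn
    zero_le_one n1 n3 n2

/-- **The pair (`A1`, `T1`)**: the cost of `A1` at all points with `χ_T1 ≠ 0`. -/
theorem payA1T1 (hn : 1 ≤ n) {L : Lc n} (hL : L.Ok) : PayE L .A1 .T1 := by
  refine ⟨thA n L.cT, thA_sm hL.cT.1 hL.cT.2, fun e he h1 => ?_⟩
  refine (evPAC hn hL.cT.1 hL.cT.2 hL.μA.1 hL.μA.2 he h1).mono fun q hq d h z hj a b => ?_
  have hLit := hq.dt.lit d h
  have h2 := (alive_T1 hq.dt.gt h hLit hj).1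
  have h3 := (off_reg hq.dt.gt h hLit (by unfold OffN; decide) hj).1
  exact pay1 hq h h2 h3 a b

/-- **The pair (`A1`, `T2`)**: the cost of `A1` at all points with `χ_T2 ≠ 0`. -/
theorem payA1T2 (hn : 1 ≤ n) {L : Lc n} (hL : L.Ok) : PayE L .A1 .T2 := by
  refine ⟨thA n L.cT, thA_sm hL.cT.1 hL.cT.2, fun e he h1 => ?_⟩
  refine (evPAC hn hL.cT.1 hL.cT.2 hL.μA.1 hL.μA.2 he h1).mono fun q hq d h z hj a b => ?_
  have hLit := hq.dt.lit d h
  have h2 := (alive_T2 hq.dt.gt h hLit hj).1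
  have h3 := (off_reg hq.dt.gt h hLit (by unfold OffN; decide) hj).1
  exact pay2 hq h h2 h3 a b

end Vale.Agent.P088.R2.H509.PA
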